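import Mathlib

/-! P097: definitions for the analyticity theorem. -/

open Set NormedSpace Complex

namespace Vale.Agent.P097

/-! ### Billiard -/

/-- One billiard bounce from the phase point `s, δ` to the impact `t`, arriving with angle `δ'`. -/
def Step (γ : ℝ → ℂ) (L s δ t δ' : ℝ) : Prop :=
  s < t ∧ t < s + L ∧ ∃ l : ℝ, 0 < l ∧ γ t - γ s = l * Complex.exp (I * δ) * deriv γ s ∧
    γ t - γ s = l * Complex.exp (-(I * δ')) * deriv γ t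

/-- The graph `δ = g s` is a rotational curve invariant under the billiard map. -/
def InvGraph (γ : ℝ → ℂ) (L : ℝ) (g : ℝ → ℝ) : Prop :=
  Continuous g ∧ Function.Periodic g L ∧ (∀ s, 0 < g s ∧ g s < Real.pi) ∧
    ∀ s t δ' : ℝ, 0 < δ' → δ' < Real.pi → Step γ L s (g s) t δ' → δ' = g t

/-- Every phase point near the boundary lies on an invariant graph. -/
def Graphs (γ : ℝ → ℂ) (L : ℝ) : Prop :=
  ∃ η : ℝ, 0 < η ∧ ∀ s δ : ℝ, 0 < δ → δ < η → ∃ g : ℝ → ℝ, InvGraph γ L g ∧ g s = δ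

/-- Arc length parametrisation of a smooth closed curve of positive curvature and length `L`. -/
structure Table (γ : ℝ → ℂ) (L : ℝ) : Prop where
  pos : 0 < L
  smooth : ContDiff ℝ (⊤ : ℕ∞) γ
  per : Function.Periodic γ L
  unit : ∀ s, ‖deriv γ s‖ = 1
  curv : ∀ s, 0 < ((starRingEnd ℂ) (deriv γ s) * deriv (deriv γ) s).im

/-! ### Fourier -/

/-- `exp (2 π i x)`. -/
noncomputable def ee (x : ℝ) : ℂ := Complex.exp (2 * Real.pi * I * x)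

/-- Fourier coefficient of a `1`-periodic function. -/
noncomputable def fc (f : ℝ → ℂ) (n : ℤ) : ℂ := ∫ t in (0:ℝ)..1, f t * ee (-(n * t))

/-- Fourier coefficient of a real function. -/
noncomputable def fr (β : ℝ → ℝ) (n : ℤ) : ℂ := fc (fun t => (β t : ℂ)) n

/-- Real trigonometric polynomial with the modes `|n| ≤ N`. -/
noncomputable def low (c : ℤ → ℂ) (N : ℕ) (t : ℝ) : ℝ :=
  (∑ n ∈ Finset.Icc (-(N:ℤ)) N, c n * ee (n * t)).re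

/-! ### Chords in a Banach algebra -/

section Alg

variable {B : Type} [NormedCommRing B] [NormedAlgebra ℂ B]

noncomputable def kk (b : ℝ → B) (y : ℝ) : B := ∫ z in (0:ℝ)..y, exp (b z)

noncomputable def ph (j : ℂ) (b : ℝ → B) (d : B) (y : ℝ) : B := exp (j • (d * kk b y))

noncomputable def em (b : ℝ → B) (y : ℝ) : B := exp ((-2 : ℂ) • b y)

noncomputable def GG (j : ℂ) (b : ℝ → B) (d : B) : B := ∫ y in (0:ℝ)..1, em b y * ph j b d y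

/-- The reflection defect. -/
noncomputable def EA (b0 : B) (bp : ℝ → B) (p : B) (bn : ℝ → B) (n : B) : B :=
  (-I) • (exp ((3 : ℂ) • b0) *
    (GG I bp p * GG I bn (-n) - GG (-I) bp p * GG (-I) bn (-n)))

/-- Chord length minus arc length, `R` being the modulus of `GG`. -/
noncomputable def LA (b : ℝ → B) (d R : B) : B := d * (R - ∫ y in (0:ℝ)..1, em b y)

noncomputable def cs (b : ℝ → B) (d Ri : B) (y : ℝ) : B :=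
  (1 / 2 : ℂ) • (Ri * (ph I b d y * GG (-I) b d + ph (-I) b d y * GG I b d))

noncomputable def sn (b : ℝ → B) (d Ri : B) (y : ℝ) : B :=
  (-I / 2) • (Ri * (ph I b d y * GG (-I) b d - ph (-I) b d y * GG I b d))

noncomputable def JJ (b h : ℝ → B) (y : ℝ) : B := ∫ z in (0:ℝ)..y, exp (b z) * h z

/-- Derivative of `LA` in the direction `h`, `Ri` being the inverse of `R`. -/
noncomputable def lin (b : ℝ → B) (d Ri : B) (h : ℝ → B) : B :=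
  d * ∫ y in (0:ℝ)..1,
    em b y * ((-2 : ℂ) • (h y * (cs b d Ri y - 1)) - d * JJ b h y * sn b d Ri y)

noncomputable def lead (h : ℝ → B) : B :=
  ∫ y in (0:ℝ)..1, (((y:ℂ) - 1 / 2) ^ 2 • h y - ((y:ℂ) - 1 / 2) • ∫ z in (0:ℝ)..y, h z)

/-- Second order Taylor hypothesis on the path `b`. -/
structure PH (M ω : ℝ) (b0 b1 b2 d : B) (b : ℝ → B) : Prop where
  cont : Continuous b
  h0 : ‖b0‖ ≤ M
  h1 : ‖b1‖ ≤ M
  h2 : ‖b2‖ ≤ M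
  hd : ‖d‖ ≤ M * ω
  hb : ∀ y ∈ Icc (0:ℝ) 1,
    ‖b y - (b0 + (y:ℂ) • (b1 * d) + ((y:ℂ) ^ 2) • (b2 * d ^ 2))‖ ≤ M * ω ^ 3

noncomputable def a2 (b0 b1 b2 : B) : B :=
  (2 / 3 : ℂ) • (b1 ^ 2 - b2) - (1 / 6 : ℂ) • exp b0 ^ 2

noncomputable def b3 (b0 b1 b2 : B) : B :=
  (7 / 24 : ℂ) • b1 ^ 2 - (5 / 12 : ℂ) • b2 - (1 / 24 : ℂ) • exp b0 ^ 2

/-- Composition of a trigonometric polynomial with `t + v`. -/
noncomputable def cmp (s : Finset ℤ) (a : ℤ → B) (v : B) : B :=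
  ∑ n ∈ s, a n * exp ((2 * Real.pi * I * n : ℂ) • v)

end Alg

/-! ### Real chords -/

noncomputable def pth (β : ℝ → ℝ) (ξ d : ℝ) (y : ℝ) : ℂ := (β (ξ + y * d) : ℂ)

noncomputable def Gr (β : ℝ → ℝ) (ξ d : ℝ) : ℂ := GG I (pth β ξ d) (d : ℂ)

noncomputable def Ee (β : ℝ → ℝ) (ξ p n : ℝ) : ℝ :=
  2 * Real.exp (3 * β ξ) * (Gr β ξ p * Gr β ξ (-n)).im

noncomputable def ll (β : ℝ → ℝ) (ξ d : ℝ) : ℝ :=
  d * (‖Gr β ξ d‖ - ∫ y in (0:ℝ)..1, Real.exp (-2 * β (ξ + y * d)))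

noncomputable def lr (β : ℝ → ℝ) (ξ d : ℝ) (h : ℝ → ℂ) : ℂ :=
  lin (pth β ξ d) (d : ℂ) ((‖Gr β ξ d‖⁻¹ : ℝ) : ℂ) (fun y => h (ξ + y * d))

/-- Unit tangent. -/
noncomputable def TT (β : ℝ → ℝ) (ξ : ℝ) : ℂ :=
  Complex.exp (I * ((∫ z in (0:ℝ)..ξ, Real.exp (β z) : ℝ) : ℂ))

/-- The curve in the Lazutkin parameter. -/
noncomputable def Gam (β : ℝ → ℝ) (ξ : ℝ) : ℂ :=
  ∫ z in (0:ℝ)..ξ, (Real.exp (-2 * β z) : ℂ) * TT β z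

noncomputable def EE (β : ℝ → ℝ) (x : ℤ → ℝ) (k : ℤ) : ℝ :=
  Ee β (x k) (x (k + 1) - x k) (x k - x (k - 1))

noncomputable def AA (β : ℝ → ℝ) (q : ℕ) (x : ℤ → ℝ) : ℝ :=
  ∑ k ∈ Finset.range q, ll β (x k) (x (k + 1) - x k)

/-- Nearly equidistributed configurations of type `1, q`. -/
def Reg (q : ℕ) (x : ℤ → ℝ) : Prop :=
  (∀ k, x (k + q) = x k + 1) ∧ ∀ k, |x (k + 1) - 2 * x k + x (k - 1)| ≤ 1 / (2 * (q:ℝ) ^ 2)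

/-- Pinned billiard polygons close up. -/
def PP (β : ℝ → ℝ) : Prop :=
  ∃ η : ℝ, 0 < η ∧ ∀ (q : ℕ) (x : ℤ → ℝ), 1 ≤ q → (∀ k, x (k + q) = x k + 1) →
    (∀ k, 0 < x (k + 1) - x k ∧ x (k + 1) - x k < η) →
    (∀ k : ℤ, 0 < k → k < q → EE β x k = 0) → EE β x 0 = 0

/-- Size and Lipschitz estimate of `Ee β ξ p n - (p - n)`. -/
structure RL (β : ℝ → ℝ) (C : ℝ) : Prop where
  pos : 0 ≤ C
  size : ∀ ω ξ p n : ℝ, 0 < ω → ω ≤ 1 → |p| ≤ 2 * ω → |n| ≤ 2 * ω →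
    |Ee β ξ p n - (p - n)| ≤ C * (ω ^ 4 + ω * |p - n|)
  lip : ∀ ω m ξ p n ξ' p' n' : ℝ, 0 < ω → ω ≤ 1 → |p| ≤ 2 * ω → |n| ≤ 2 * ω → |p'| ≤ 2 * ω →
    |n'| ≤ 2 * ω → |p - n| ≤ ω ^ 2 → |p' - n'| ≤ ω ^ 2 → ω ^ 2 * |ξ - ξ'| ≤ m →
    ω * |p - p'| ≤ m → ω * |n - n'| ≤ m → |(p - n) - (p' - n')| ≤ m →
    |(Ee β ξ p n - (p - n)) - (Ee β ξ' p' n' - (p' - n'))| ≤ C * ω * m

/-- The action is nearly constant on nearly critical configurations. -/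
def RM (β : ℝ → ℝ) : Prop :=
  ∃ (C : ℝ) (q₀ : ℕ), ∀ q : ℕ, q₀ ≤ q → ∃ m : ℝ, ∀ x, Reg q x → ∀ lam ε : ℝ,
    (∀ k, |EE β x k - lam| ≤ ε) → |AA β q x - m| ≤ C * (q:ℝ) ^ 5 * ε ^ 2

/-- Smooth and `1`-periodic. -/
def SP (β : ℝ → ℝ) : Prop := ContDiff ℝ (⊤ : ℕ∞) β ∧ Function.Periodic β 1

/-- Decay hypothesis on Fourier coefficients. -/
def HC (M τ : ℝ) (q : ℕ) (c : ℤ → ℂ) : Prop :=
  (∀ n, c (-n) = (starRingEnd ℂ) (c n)) ∧ ‖c 0‖ ≤ M ∧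
    ∀ n : ℤ, n ≠ 0 → ‖c n‖ ≤ M * Real.exp (-(τ * min |(n:ℝ)| q)) / |(n:ℝ)| ^ 31

/-- The a priori estimate. -/
def AP (c : ℤ → ℂ) : Prop :=
  ∀ M : ℝ, ∃ (C : ℝ) (q₀ : ℕ), ∀ q : ℕ, q₀ ≤ q → ∀ τ : ℝ, 0 ≤ τ → τ ≤ 1 → HC M τ q c →
    ‖c q‖ ≤ C * Real.exp (-(τ * q)) / (q:ℝ) ^ 32

/-- Lazutkin reparametrisation `s` of the table. -/
structure Laz (γ : ℝ → ℂ) (L : ℝ) (β : ℝ → ℝ) (c : ℝ) (s : ℝ ≃ₜ ℝ) : Prop where
  pos : 0 < c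
  per : ∀ ξ, s (ξ + 1) = s ξ + L
  der : ∀ ξ, HasDerivAt s (c * Real.exp (-2 * β ξ)) ξ
  tan : ∀ ξ, deriv γ (s ξ) = deriv γ (s 0) * TT β ξ

/-- Bounds for short real chords. -/
structure GB (M c d₀ : ℝ) : Prop where
  cpos : 0 < c
  dpos : 0 < d₀
  h : ∀ β : ℝ → ℝ, Continuous β → (∀ x, |β x| ≤ M) → ∀ ξ d : ℝ, |d| ≤ d₀ →
    c ≤ (Gr β ξ d).re ∧ ‖Gr β ξ d‖ ≤ c⁻¹ ∧ |(Gr β ξ d).im| ≤ c⁻¹ * |d| ∧
    (0 < d → 0 < (Gr β ξ d).im) ∧ (d < 0 → (Gr β ξ d).im < 0)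

/-! ### Algebras -/

/-- The weight. -/
noncomputable def wt (ρ : ℝ) (n : ℤ) : ℝ := Real.exp (ρ * |(n:ℝ)|) * (1 + |(n:ℝ)|) ^ 2

/-- A weighted Wiener algebra. -/
structure Wn (ρ : ℝ) : Type 1 where
  B : Type
  [i1 : NormedCommRing B]
  [i2 : NormedAlgebra ℂ B]
  [i3 : CompleteSpace B]
  [i4 : NormOneClass B]
  e : ℤ → B
  ev : ℝ → B →ₐ[ℂ] ℂ
  e_le : ∀ n, ‖e n‖ ≤ wt ρ n
  ev_le : ∀ t x, ‖ev t x‖ ≤ ‖x‖
  ev_e : ∀ t n, ev t (e n) = ee (n * t)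
  ev_cont : ∀ x, Continuous fun t => ev t x
  ev_per : ∀ t x, ev (t + 1) x = ev t x
  co_le : ∀ (s : Finset ℤ) x, ∑ n ∈ s, wt ρ n * ‖fc (fun t => ev t x) n‖ ≤ ‖x‖
  tail : ∀ (s : Finset ℤ) (A : ℝ) x t, 0 < A → (∀ n, n ∉ s → A ≤ wt ρ n) →
    ‖ev t x - ∑ n ∈ s, fc (fun t => ev t x) n * ee (n * t)‖ ≤ ‖x‖ / A

attribute [instance] Wn.i1 Wn.i2 Wn.i3 Wn.i4

/-- The algebra of pairs, with a norm that measures the difference. -/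
structure Pr (lam : ℝ) : Type 1 where
  B : Type
  [i1 : NormedCommRing B]
  [i2 : NormedAlgebra ℂ B]
  [i3 : CompleteSpace B]
  [i4 : NormOneClass B]
  f1 : B →ₐ[ℂ] ℂ
  f2 : B →ₐ[ℂ] ℂ
  mk2 : ℂ → ℂ → B
  f1_mk : ∀ a b, f1 (mk2 a b) = a
  f2_mk : ∀ a b, f2 (mk2 a b) = b
  cont : Continuous fun z : ℂ × ℂ => mk2 z.1 z.2
  nrm : ∀ x, ‖x‖ = max ‖f1 x‖ ‖f2 x‖ + lam * ‖f1 x - f2 x‖

attribute [instance] Pr.i1 Pr.i2 Pr.i3 Pr.i4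

/-- Truncation order. -/
def NN (q : ℕ) : ℕ := (q + 1) / 2

/-- Width of the strip. -/
noncomputable def rho (τ : ℝ) (q : ℕ) : ℝ := τ + 24 * Real.log q / NN q

/-- Real elements. -/
def Wn.Re {ρ : ℝ} (w : Wn ρ) (x : w.B) : Prop := ∀ t, (w.ev t x).im = 0

/-- Coefficients of the truncated function in the Wiener algebra. -/
noncomputable def Wn.cf {ρ : ℝ} (w : Wn ρ) (c : ℤ → ℂ) (n : ℤ) : w.B := c n • w.e n

/-- The truncated function composed with `t + v`. -/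
noncomputable def Wn.bb {ρ : ℝ} (w : Wn ρ) (c : ℤ → ℂ) (q : ℕ) (v : w.B) : w.B :=
  cmp (Finset.Icc (-(NN q : ℤ)) (NN q)) (w.cf c) v

/-- The gap `1/q + D`. -/
noncomputable def Wn.gp {ρ : ℝ} (w : Wn ρ) (q : ℕ) (D : w.B) : w.B := (1 / q : ℂ) • 1 + D

/-- The defect in the Wiener algebra. -/
noncomputable def Wn.EW {ρ : ℝ} (w : Wn ρ) (c : ℤ → ℂ) (q : ℕ) (u Dp Dn : w.B) : w.B :=
  EA (w.bb c q u) (fun y => w.bb c q (u + (y:ℂ) • w.gp q Dp)) (w.gp q Dp)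
    (fun y => w.bb c q (u + (y:ℂ) • -w.gp q Dn)) (w.gp q Dn)

/-- The approximate invariant curve in the Wiener algebra. -/
structure Wn.Sol {ρ : ℝ} (w : Wn ρ) (q : ℕ) (δ : ℝ) (F : w.B → w.B → w.B → w.B)
    (u Dp Dn : w.B) : Prop where
  ru : w.Re u
  hu : ‖u‖ ≤ (q:ℝ) ^ 2 * δ
  hp : ‖Dp‖ ≤ q * δ
  hn : ‖Dn‖ ≤ q * δ
  hf : ‖Dp - Dn‖ ≤ δ
  evp : ∀ t, w.ev t Dp = w.ev (t + 1 / q) u - w.ev t u
  evn : ∀ t, w.ev t Dn = w.ev t u - w.ev (t - 1 / q) u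
  co : ∀ n : ℤ, n ≠ 0 → |n| < q → fc (fun t => w.ev t (F u Dp Dn)) n = 0

/-- Gap function of `t + u t`. -/
noncomputable def gap (q : ℕ) (u : ℝ → ℝ) (t : ℝ) : ℝ := 1 / q + u (t + 1 / q) - u t

/-- Output of the Wiener algebra construction. -/
structure WO (C τ : ℝ) (q : ℕ) (c : ℤ → ℂ) (u : ℝ → ℝ) (lam : ℝ) : Prop where
  cont : Continuous u
  per : Function.Periodic u 1
  a : ∀ t, |u (t + 1 / q) - 2 * u t + u (t - 1 / q)| ≤ 1 / (2 * (q:ℝ) ^ 2)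
  b : ∀ t, |Ee (low c (NN q)) (t + u t) (gap q u t) (gap q u (t - 1 / q)) - lam|
    ≤ C * Real.exp (-(τ * q)) / (q:ℝ) ^ 36
  c' : ‖fr (fun t => ll (low c (NN q)) (t + u t) (gap q u t)) q‖
    ≤ C * Real.exp (-(τ * q)) / (q:ℝ) ^ 36
  d : ∀ n : ℤ, (NN q : ℤ) < |n| → |n| ≤ (q:ℤ) ^ 2 →
    ‖fc (fun t => lr (low c (NN q)) (t + u t) (gap q u t) (fun x => ee (n * x))) q
      - (if n = q then (3 / (4 * Real.pi ^ 2) / (q:ℂ) ^ 3 : ℂ) else 0)‖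
      ≤ C * |(n:ℝ)| / (q:ℝ) ^ 5 / wt τ (q - n)

end Vale.Agent.P097
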